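import Vale.Agent.P241.H256.Stage
import Vale.Agent.P251.M.MU

/-!
# P241, block BRIDGE, (B3): `MU` is a telescope of realised objects; the form for `S : Susp T`
-/

open CategoryTheory MonoidalCategory Limits Pretriangulated
open Vale.Agent.P251.G Vale.Agent.P251.G.LC Vale.Agent.P251.I Vale.Agent.P251.T Vale.Agent.P251.M
  Vale.Agent.P241.H435

set_option linter.unusedSectionVars false

universe v u

noncomputable section

namespace Vale.Agent.P241.H256

section MU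

variable {T : Type u} [Category.{v} T] [Preadditive T] [HasZeroObject T]
    [HasShift T ℤ] [∀ n : ℤ, (shiftFunctor T n).Additive] [Pretriangulated T] [IsTriangulated T]
    [MonoidalCategory T] [SymmetricCategory T] [TensorTriangulated T] [MonoidalClosed T]
    [HasCoproducts.{0} T] [HasProducts.{0} T] [StableCat T]

variable {F : SpaceFunctor T} {e : F.S.obj CCF ≅ (stdEven T).L}

/-- even spheres are spheres -/
theorem nonempty_stdEven (n : ℤ) : Nonempty ((stdEven T).S n ≅ (𝟙_ T)⟦(2 * n : ℤ)⟧) :=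
  ⟨(stdEven T).sphIso (Iso.refl _) n⟩

theorem realC_P (y : ℤ × (ℕ × ℕ)) : RealC F ((thomSys F (stdEven T) e).P.X y) := by
  change RealC F ((stdEven T).S y.1 ⊗ TO F.S y.2.1 (Fin y.2.2))
  obtain ⟨i⟩ := nonempty_stdEven (T := T) y.1
  exact RealC.tensor ((realC_sphere _).of_iso i.symm) (realC_space _)

/-- **`MU` is a telescope of realised objects.** -/
def realTelMU (M : MUMon F (stdEven T) e) : RealTel F M.R where
  A := (seqMU F (stdEven T) e).E
  ι := M.ι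
  tel := M.tel
  real _ := realC_P _

end MU

section St

open Vale.Agent.P251.St (Space Map SHCat Susp Rn ofLC toLC ofHom toHom fc_toLC fc_ofLC)

variable {T : SHCat} (S : Susp T)

/-- The pointed map `v : (ℝ^a)⁺ → C⁺` represents `x : X ⟶ R`. -/
def ReprS {X R : T.C} (x : X ⟶ R) {a : ℕ} {C : Space} (v : Map (Rn a) C) : Prop :=
  ∃ (P : T.C) (p : ℤ) (_ : Nonempty (P ≅ (𝟙_ T.C)⟦p⟧)) (θ : S.obj C ⟶ R ⊗ P)
    (e : S.obj (Rn a) ≅ X ⊗ P), S.map v ≫ θ = e.hom ≫ (x ▷ P)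

variable {S}

theorem ReprS.of {X R : T.C} {x : X ⟶ R} {a : ℕ} {C : FCat} {v : SphF a ⟶ C}
    (h : Repr S.toSpaceFunctor x v) : ReprS S x (C := ofLC C.obj) (ofHom v.hom) := h

/-- (R1) for `S : Susp T`. -/
theorem exists_reprS {R : T.C} (hR : RealTel S.toSpaceFunctor R) {X : T.C} (x : X ⟶ R) {n : ℤ}
    (hX : Nonempty (X ≅ (𝟙_ T.C)⟦n⟧)) :
    ∃ (a : ℕ) (C : Space) (_ : Vale.Agent.P251.St.FC C) (v : Map (Rn a) C), ReprS S x v := by
  obtain ⟨a, C, v, h⟩ := exists_repr hR x hX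
  exact ⟨a, ofLC C.obj, fc_ofLC C.property, ofHom v.hom, ReprS.of h⟩

/-- (R2) for `S : Susp T`. -/
theorem exists_reprS_null {R : T.C} (hR : RealTel S.toSpaceFunctor R) {A B : Space}
    (hA : Vale.Agent.P251.St.FC A) (hB : Vale.Agent.P251.St.FC B) (g : Map A B)
    {X : T.C} (x : X ⟶ R) {n : ℤ} (hX : Nonempty (X ≅ (𝟙_ T.C)⟦n⟧))
    (h : (S.map g : S.obj A ⟶ S.obj B) ⊗ₘ x = 0) :
    ∃ (a : ℕ) (C : Space) (_ : Vale.Agent.P251.St.FC C) (v : Map (Rn a) C), ReprS S x v ∧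
      Vale.Agent.P251.St.Homotopic (X := A.prod (Rn a)) (Y := B.prod C)
        (app (toHom g ⊗ₘ toHom v)) (fun _ => OnePoint.infty) := by
  let Y : FCat := ⟨toLC A, fc_toLC hA⟩
  let Z : FCat := ⟨toLC B, fc_toLC hB⟩
  obtain ⟨a, C, v, h1, h2⟩ := exists_repr_null hR (Y := Y) (Z := Z) (FCat.hom (toHom g)) x hX h
  refine ⟨a, ofLC C.obj, fc_ofLC C.property, ofHom v.hom, ReprS.of h1, ?_⟩
  exact (Vale.Agent.P251.St.homotopic_iff' (X := A.prod (Rn a)) (Y := B.prod (ofLC C.obj))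
    (ofHom (toHom g ⊗ₘ v.hom)) (ofHom 0)).2 h2

end St

end Vale.Agent.P241.H256
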