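import Vale.Agent.P241.H256.Lin
import Vale.Agent.P241.H256.StageMU
import Vale.Agent.P241.H302.EulNull

/-!
# P241, block BRIDGE, (B3): the statement `H302.LinStage`

From a class `q v_t^M g^*(o.lin ι)` which is killed by `S Y` to an honest map `v` representing
`m v_t^M` such that `g × Y × v` is null-homotopic.
-/

open CategoryTheory MonoidalCategory Limits Pretriangulated
open Vale.Agent.P251.G Vale.Agent.P251.G.LC Vale.Agent.P251.I Vale.Agent.P251.T Vale.Agent.P251.Q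
  Vale.Agent.P251.M Vale.Agent.P251.F Vale.Agent.P251.M.EvenSpheres
open Vale.Agent.P251.St (Space Map SHCat Susp Rn ofLC toLC ofHom toHom fc_toLC fc_ofLC)
open Vale.Agent.P241.Final Vale.Agent.P241.R Vale.Agent.P241.H796

set_option linter.unusedSectionVars false

noncomputable section

namespace Vale.Agent.P241.H256

variable {T : SHCat} {S : Susp T}

/-- `m v_t^M` as a coefficient of the theory of `MU` -/
theorem exists_vt (X : Ctx S) (p t m M : ℕ) (hm : ¬ p ∣ m) :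
    ∃ (k : ℤ) (x : (stdEven T.C).S k ⟶ X.D.R), IsVT X.D p t k x ∧
      coefOf (cofTriangles S.toSpaceFunctor) (isSusp_lineCls X.e (SeqMonoid.const X.M.R)) x =
        (m : ℤ) • vv p t X.o.law ^ M := by
  obtain ⟨b, hb⟩ := exists_pow_of (X.D.vel p t) M
  rw [← X.D.vel_spec] at hb
  have h1 : HRing.of (stdEven T.C) X.D.R _ ((m : ℤ) • b) = (m : ℤ) • vv p t X.D.law ^ M := by
    rw [EUL.HRing_of_zsmul, hb]
  refine ⟨_, (m : ℤ) • b, ⟨m, M, hm, ?_⟩, ?_⟩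
  · rw [h1, ← nsmul_eq_mul, natCast_zsmul]
  · apply (coefK_bijective X.e X.M.R).1
    exact (coeffHom_coefOf _).trans (h1.trans (EUL.coefK_vv_pow X.M X.b p t M m).symm)

theorem natAbs_smul_mem {G : Type*} [AddCommGroup G] (H : AddSubgroup G) {q : ℤ} {x : G}
    (h : q • x ∈ H) : ((q.natAbs : ℕ) : ℤ) • x ∈ H := by
  rcases Int.natAbs_eq q with h1 | h1
  · rwa [← h1]
  · rw [h1, neg_smul] at h
    exact neg_mem_iff.1 h

theorem comp_tensor_eq_zero {C : Type*} [Category C] [Preadditive C] [MonoidalCategory C]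
    {A B B' A' U V : C} (a : A ⟶ B) (b : B ⟶ B') (c : B' ⟶ A') {x : U ⟶ V} (h : b ⊗ₘ x = 0) :
    (a ≫ b ≫ c) ⊗ₘ x = 0 := by
  have e : (a ≫ b ≫ c) ⊗ₘ x = (a ▷ U) ≫ (b ⊗ₘ x) ≫ (c ▷ V) := by
    rw [← tensorHom_id, ← tensorHom_id, tensorHom_comp_tensorHom, tensorHom_comp_tensorHom,
      Category.id_comp, Category.comp_id]
  rw [e, h, zero_comp, comp_zero]

/-- **(B3)** the statement consumed by `H302.eulNull`. -/
theorem linStage (X : Ctx S) (p t : ℕ) : H302.LinStage X p t := by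
  intro K ι _ _ g Y q M hK hY hq h
  have hm : ¬ p ∣ q.natAbs := fun hd => hq (Int.natCast_dvd.2 hd)
  have h1 := natAbs_smul_mem _ h
  obtain ⟨k, x, hx, hx'⟩ := exists_vt X p t q.natAbs M hm
  have hι : FC (Cpow ι) := (fcCpow (Fintype.card ι)).of_iso (cpowIso (Fintype.equivFin ι).symm)
  have hgood : (thK X.e X.M.R).Good K := ⟨hK⟩
  rw [← smul_assoc, ← hx'] at h1
  have h2 := tensor_eq_zero_of_mem_kill X.o hK hι g x _ h1
  let K' : FCat := ⟨K, hK⟩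
  let Y' : FCat := ⟨Y, hY⟩
  let C' : FCat := ⟨Cpow ι, hι⟩
  let g' : K' ⟶ C' := FCat.hom g
  have h3 : S.toSpaceFunctor.S.map (g' ▷ Y') ⊗ₘ x = 0 := by
    rw [Functor.Monoidal.map_whiskerRight S.toSpaceFunctor.S g' Y']
    exact comp_tensor_eq_zero _ _ _ h2
  obtain ⟨a, C, v, h4, h5⟩ := exists_repr_null (realTelMU X.M) (g' ▷ Y') x (nonempty_stdEven k) h3
  obtain ⟨P, r, hP, θ, e, h6⟩ := h4
  refine ⟨a, ofLC C.obj, ofHom v.hom, ⟨⟨a, ⟨Homeomorph.refl _⟩⟩, fc_ofLC C.property, k, x, P, r, hP,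
    θ, e, hx, h6⟩, ?_⟩
  have h7 : (g ⊗ₘ (𝟙 Y ⊗ₘ v.hom)) = (α_ K Y (Sph a)).inv ≫ ((g ▷ Y) ⊗ₘ v.hom) ≫
      (α_ (Cpow ι) Y C.obj).hom := by
    rw [← tensorHom_id, associator_naturality, Iso.inv_hom_id_assoc]
  have h8 : Homotopic (g ⊗ₘ (𝟙 Y ⊗ₘ v.hom)) 0 := by
    rw [h7]
    refine Homotopic.trans (Homotopic.comp_left _ (Homotopic.comp_right h5 _))
      (Homotopic.of_eq ?_)
    rw [zero_comp, comp_zero]
  exact (Vale.Agent.P251.St.homotopic_iff' (X := (⟨K × (Y × (Fin a → ℝ))⟩ : Space))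
    (Y := (⟨(ι → ℂ) × (Y × C.obj)⟩ : Space)) (ofHom (g ⊗ₘ (𝟙 Y ⊗ₘ v.hom))) (ofHom 0)).2 h8

end Vale.Agent.P241.H256
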