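import Vale.Agent.P251.Q.Ring

/-!
# P241, block EUL-8 (E4): ideals of a multiplicative theory

A `TIdeal E` is a family of subgroups `J.I X` of the groups `E.U X` which is stable under pull
backs and exterior products.  It is an ideal of `E.U B` for every compact `B`, and it is stable
under the coefficients and under the action along continuous maps (Thom classes).

`TIdeal.pow_mem` (E4): if `m i • v i ^ L i` is in the ideal of the point for all `i < h`, then
`(∏ m i) • w ^ (∑ L i)` is in the ideal of `B` for every `w` in the span of `v 0, …, v (h-1)` in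
`E.U B`; the exponent and the integer do not depend on `B` and `w`.
-/

open CategoryTheory MonoidalCategory
open Vale.Agent.P251.G Vale.Agent.P251.G.LC Vale.Agent.P251.Q

universe v

namespace Vale.Agent.P241.H256

/-- Ideals of a multiplicative theory. -/
structure TIdeal (E : MultTheory.{v}) where
  /-- the subgroup of `E.U X` -/
  I : ∀ X : LC, AddSubgroup (E.U X)
  map_mem : ∀ {X Y : LC} [E.Good X] [E.Good Y] (f : X ⟶ Y) {y : E.U Y}, y ∈ I Y →
    E.map f y ∈ I X
  cross_mem : ∀ {X Y : LC} [E.Good X] [E.Good Y] {x : E.U X} (y : E.U Y), x ∈ I X →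
    E.cross x y ∈ I (X ⊗ Y)

namespace TIdeal

variable {E : MultTheory.{v}} (J : TIdeal E) {X Y Z : LC} [hX : E.Good X] [hY : E.Good Y]
  [hZ : E.Good Z]

theorem cross_mem_right (x : E.U X) {y : E.U Y} (hy : y ∈ J.I Y) :
    E.cross x y ∈ J.I (X ⊗ Y) := by
  rw [← MultTheory.cross_comm]
  exact J.map_mem _ (J.cross_mem x hy)

theorem map_mem_iff (e : X ≅ Y) {y : E.U Y} : E.map e.hom y ∈ J.I X ↔ y ∈ J.I Y := by
  refine ⟨fun h => ?_, J.map_mem _⟩
  have := J.map_mem e.inv h
  rwa [MultTheory.map_inv_hom] at this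

theorem act_mem_left (f : C(Z, Y)) {y : E.U Y} (hy : y ∈ J.I Y) (z : E.U Z) :
    E.act f y z ∈ J.I Z := J.map_mem _ (J.cross_mem z hy)

theorem act_mem_right (f : C(Z, Y)) (y : E.U Y) {z : E.U Z} (hz : z ∈ J.I Z) :
    E.act f y z ∈ J.I Z := J.map_mem _ (J.cross_mem_right y hz)

/-- the ideal of coefficients -/
def coef : Ideal E.A where
  carrier := {a | E.ofA a ∈ J.I (𝟙_ LC)}
  zero_mem' := (J.I (𝟙_ LC)).zero_mem
  add_mem' ha hb := (J.I (𝟙_ LC)).add_mem ha hb
  smul_mem' c _ ha := J.map_mem _ (J.cross_mem_right (E.ofA c) ha)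

theorem mem_coef {a : E.A} : a ∈ J.coef ↔ E.ofA a ∈ J.I (𝟙_ LC) := Iff.rfl

theorem smul_mem_left {a : E.A} (ha : a ∈ J.coef) (x : E.U X) : a • x ∈ J.I X :=
  J.map_mem _ (J.cross_mem x ha)

theorem smul_mem_right (a : E.A) {x : E.U X} (hx : x ∈ J.I X) : a • x ∈ J.I X :=
  J.map_mem _ (J.cross_mem_right (E.ofA a) hx)

/-- the ideal of `E.U X` for compact `X` -/
def ideal (X : LC) [E.Good X] [CompactSpace X] : Ideal (E.U X) where
  carrier := {x | x ∈ J.I X}
  zero_mem' := (J.I X).zero_mem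
  add_mem' ha hb := (J.I X).add_mem ha hb
  smul_mem' c _ ha := J.act_mem_right (ContinuousMap.id X) c ha

theorem mem_ideal [CompactSpace X] {x : E.U X} : x ∈ J.ideal X ↔ x ∈ J.I X := Iff.rfl

theorem algebraMap_mem [CompactSpace X] {a : E.A} (ha : a ∈ J.coef) :
    algebraMap E.A (E.U X) a ∈ J.ideal X := by
  rw [Algebra.algebraMap_eq_smul_one]
  exact J.smul_mem_left ha _

theorem map_coef_le [CompactSpace X] : J.coef.map (algebraMap E.A (E.U X)) ≤ J.ideal X :=
  Ideal.map_le_iff_le_comap.2 fun _ ha => J.algebraMap_mem ha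

/-- the classes which are in the ideal after multiplication by an integer -/
def colon (m : ℤ) : TIdeal E where
  I X := (J.I X).comap (zsmulAddGroupHom m)
  map_mem {X Y} _ _ f {y} hy := by
    change m • E.map f y ∈ J.I _
    rw [← map_zsmul]
    exact J.map_mem f hy
  cross_mem {X Y} _ _ {x} y hx := by
    change m • E.cross x y ∈ J.I _
    rw [← AddMonoidHom.smul_apply, ← map_zsmul]
    exact J.cross_mem y hx

omit hX in
theorem mem_colon {m : ℤ} {x : E.U X} : x ∈ (J.colon m).I X ↔ m • x ∈ J.I X := Iff.rfl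

theorem mem_coef_colon {m : ℤ} {a : E.A} : a ∈ (J.colon m).coef ↔ m • a ∈ J.coef := Iff.rfl

end TIdeal

/-! ### Powers -/

/-- An element of the ideal generated by elements with powers in an ideal. -/
theorem pow_mem_of_span {A : Type*} [CommRing A] (K : Ideal A) {ι : Type*} (s : Finset ι)
    (v : ι → A) (L : ι → ℕ) (hv : ∀ i ∈ s, v i ^ L i ∈ K) {w : A}
    (hw : w ∈ Ideal.span (v '' (s : Set ι))) : w ^ (1 + ∑ i ∈ s, L i) ∈ K := by
  classical
  induction s using Finset.induction_on generalizing w with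
  | empty =>
    have h0 : w = 0 := by simpa using hw
    simp [h0]
  | insert j s hj ih =>
    rw [Finset.coe_insert, Set.image_insert_eq, Ideal.span_insert,
      Submodule.mem_sup] at hw
    obtain ⟨a, ha, b, hb, rfl⟩ := hw
    have h1 := ih (fun i hi => hv i (Finset.mem_insert_of_mem hi)) hb
    obtain ⟨c, rfl⟩ := Ideal.mem_span_singleton'.1 ha
    have h2 : (c * v j) ^ L j ∈ K := by
      rw [mul_pow]
      exact K.mul_mem_left _ (hv j (Finset.mem_insert_self j s))
    refine Ideal.add_pow_mem_of_pow_mem_of_le K h2 h1 ?_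
    rw [Finset.sum_insert hj]
    omega

namespace TIdeal

variable {E : MultTheory.{v}} (J : TIdeal E) {X : LC} [hX : E.Good X]

/-- **(E4)** Powers of elements of `(v 0, …, v (h-1)) E.U B` are in the ideal. -/
theorem pow_mem {h : ℕ} (v : ℕ → E.A) (m : ℕ → ℤ) (L : ℕ → ℕ)
    (hv : ∀ i < h, m i • v i ^ L i ∈ J.coef) [CompactSpace X] {w : E.U X}
    (hw : w ∈ (Ideal.span (v '' {i | i < h})).map (algebraMap E.A (E.U X))) :
    (∏ i ∈ Finset.range h, m i) • w ^ (1 + ∑ i ∈ Finset.range h, L i) ∈ J.I X := by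
  set n : ℤ := ∏ i ∈ Finset.range h, m i with hn
  have key : ∀ i ∈ Finset.range h, algebraMap E.A (E.U X) (v i) ^ L i ∈ (J.colon n).ideal X := by
    intro i hi
    rw [← map_pow]
    refine (J.colon n).algebraMap_mem ?_
    rw [J.mem_coef_colon]
    have h1 : n = (∏ j ∈ (Finset.range h).erase i, m j) * m i :=
      (Finset.prod_erase_mul _ _ hi).symm
    rw [h1, mul_smul]
    exact zsmul_mem (hv i (Finset.mem_range.1 hi)) _
  have hw' : w ∈ Ideal.span ((fun i => algebraMap E.A (E.U X) (v i)) ''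
      ((Finset.range h : Finset ℕ) : Set ℕ)) := by
    rw [Ideal.map_span, Set.image_image] at hw
    convert hw using 3
    ext i
    simp
  exact pow_mem_of_span ((J.colon n).ideal X) (Finset.range h)
    (fun i => algebraMap E.A (E.U X) (v i)) L key hw'

/-- The same for an explicit sum (the output of the roots lemma), in any space. -/
theorem sum_smul_mem {h : ℕ} (v : ℕ → E.A) (m : ℤ) (L : ℕ) (hv : ∀ i < h, m • v i ^ L ∈ J.coef)
    (c : ℕ → E.U X) : m • ∑ i ∈ Finset.range h, v i ^ L • c i ∈ J.I X := by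
  rw [Finset.smul_sum]
  refine _root_.sum_mem fun i hi => ?_
  rw [← smul_assoc]
  exact J.smul_mem_left (hv i (Finset.mem_range.1 hi)) _

/-- One integer and one exponent for all `i < h`. -/
theorem exists_uniform {h p : ℕ} (hp : p.Prime) (v : ℕ → E.A)
    (hv : ∀ i < h, ∃ (m : ℤ) (L : ℕ), ¬ (p : ℤ) ∣ m ∧ m • v i ^ L ∈ J.coef) :
    ∃ (m : ℤ) (L : ℕ), ¬ (p : ℤ) ∣ m ∧ ∀ i < h, m • v i ^ L ∈ J.coef := by
  induction h with
  | zero =>
    exact ⟨1, 0, fun h => hp.one_lt.ne' (by exact_mod_cast Int.eq_one_of_dvd_one (by positivity) h),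
      fun i hi => absurd hi (Nat.not_lt_zero i)⟩
  | succ h ih =>
    obtain ⟨m, L, hm, h1⟩ := ih fun i hi => hv i (hi.trans (Nat.lt_succ_self h))
    obtain ⟨m', L', hm', h2⟩ := hv h (Nat.lt_succ_self h)
    refine ⟨m * m', L + L', fun hd => ?_, fun i hi => ?_⟩
    · rcases (Nat.prime_iff_prime_int.1 hp).dvd_or_dvd hd with h3 | h3
      · exact hm h3
      · exact hm' h3
    · have h3 : (m * m') • v i ^ (L + L') = (m • v i ^ L) * (m' • v i ^ L') := by
        rw [smul_mul_smul_comm, pow_add]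
      rw [h3]
      rcases Nat.lt_succ_iff_lt_or_eq.1 hi with h4 | rfl
      · exact J.coef.mul_mem_right _ (h1 i h4)
      · exact J.coef.mul_mem_left _ h2

end TIdeal

end Vale.Agent.P241.H256
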