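import Vale.Agent.P251.M.ThK
import Vale.Agent.P251.M.ActForm
import Vale.Agent.P241.H256.TIdeal

/-!
# P241, block EUL-8 (E4): the classes which are killed by an object `Y` of `T`

For a commutative monoid `R` of `T` and an object `Y`, `kill e R Y` is the ideal (`TIdeal`) of the
theory `thK e R` of all classes whose homogeneous components `x : S X ⟶ R ⊗ S^{2k}` satisfy
`x ▷ Y = 0`.
-/

open CategoryTheory MonoidalCategory Limits Pretriangulated MonObj
open Vale.Agent.P251.G Vale.Agent.P251.G.LC Vale.Agent.P251.I Vale.Agent.P251.T Vale.Agent.P251.Q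
  Vale.Agent.P251.M

set_option linter.unusedSectionVars false

universe v u

noncomputable section

namespace Vale.Agent.P241.H256

section gen

variable {T : Type u} [Category.{v} T] [Preadditive T] [MonoidalCategory T] [SymmetricCategory T]
  [MonoidalPreadditive T]

/-- `f ▷ Y = 0` implies `(f ⊗ g) ▷ Y = 0`. -/
theorem tensorHom_whisker_zero {Y A B C D : T} {f : A ⟶ B} (g : C ⟶ D) (h : f ▷ Y = 0) :
    (f ⊗ₘ g) ▷ Y = 0 := by
  have h1 : (f ▷ C) ▷ Y = 0 := by
    have h2 : (f ▷ C) ▷ Y = (α_ A C Y).hom ≫ A ◁ (β_ C Y).hom ≫ (α_ A Y C).inv ≫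
        (f ▷ Y) ▷ C ≫ (α_ B Y C).hom ≫ B ◁ (β_ Y C).hom ≫ (α_ B C Y).inv := by
      have h3 : B ◁ (β_ C Y).hom ≫ B ◁ (β_ Y C).hom = 𝟙 _ := by
        rw [← MonoidalCategory.whiskerLeft_comp, SymmetricCategory.symmetry,
          MonoidalCategory.whiskerLeft_id]
      rw [associator_naturality_left_assoc, Iso.inv_hom_id_assoc, whisker_exchange_assoc,
        reassoc_of% h3, associator_inv_naturality_left, Iso.hom_inv_id_assoc]
    rw [h2, h, MonoidalPreadditive.zero_whiskerRight, zero_comp, comp_zero, comp_zero, comp_zero]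
  rw [tensorHom_def, comp_whiskerRight, h1, zero_comp]

/-- `g ▷ Y = 0` implies `(f ⊗ g) ▷ Y = 0`. -/
theorem tensorHom_whisker_zero' {Y A B C D : T} (f : A ⟶ B) {g : C ⟶ D} (h : g ▷ Y = 0) :
    (f ⊗ₘ g) ▷ Y = 0 := by
  have h1 : (B ◁ g) ▷ Y = (α_ B C Y).hom ≫ B ◁ (g ▷ Y) ≫ (α_ B D Y).inv := by
    simp
  rw [tensorHom_def, comp_whiskerRight, h1, h, MonoidalPreadditive.whiskerLeft_zero, zero_comp,
    comp_zero, comp_zero]

variable {R : T} [MonObj R] [IsCommMonObj R] (S : EvenSpheres T) (Y : T)

variable (R) in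
/-- The homogeneous classes which are killed by `Y`. -/
def killTot (X : T) : AddSubgroup ((RSys R S).Tot X) where
  carrier := {u | ∀ k, (hq R S k X (u k)) ▷ Y = 0}
  zero_mem' k := by
    rw [DirectSum.zero_apply, map_zero, MonoidalPreadditive.zero_whiskerRight]
  add_mem' {a b} ha hb k := by
    rw [DirectSum.add_apply, map_add, MonoidalPreadditive.add_whiskerRight, ha k, hb k, add_zero]
  neg_mem' {a} ha k := by
    have h1 : (-a) k = -(a k) := rfl
    have h2 := MonoidalPreadditive.add_whiskerRight (X := Y) (hq R S k X (a k))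
      (hq R S k X (-(a k)))
    rw [← map_add, add_neg_cancel, map_zero, MonoidalPreadditive.zero_whiskerRight, ha k,
      zero_add] at h2
    rw [h1, ← h2]

variable {S Y}

theorem tof_mem_killTot {X : T} {k : ℤ} {a : (RSys R S).H k X} :
    (RSys R S).tof X k a ∈ killTot R S Y X ↔ (hq R S k X a) ▷ Y = 0 := by
  constructor
  · intro h
    have h1 := h k
    rwa [DirectSum.of_eq_same] at h1
  · intro h l
    by_cases hl : k = l
    · subst hl
      rw [DirectSum.of_eq_same]
      exact h
    · rw [DirectSum.of_eq_of_ne _ _ _ (fun e => hl e.symm), map_zero,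
        MonoidalPreadditive.zero_whiskerRight]

theorem tpull_mem_killTot {X X' : T} (f : X ⟶ X') {u : (RSys R S).Tot X'}
    (hu : u ∈ killTot R S Y X') : (RSys R S).tpull f u ∈ killTot R S Y X := by
  intro k
  rw [MSys.tpull_apply, hq_pull, comp_whiskerRight, hu k, comp_zero]

open scoped Classical in
theorem killTot_induction {X : T} {P : (RSys R S).Tot X → Prop} (h0 : P 0)
    (hadd : ∀ x y, P x → P y → P (x + y))
    (hof : ∀ k (a : (RSys R S).H k X), (hq R S k X a) ▷ Y = 0 → P ((RSys R S).tof X k a))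
    {u : (RSys R S).Tot X} (hu : u ∈ killTot R S Y X) : P u := by
  rw [← DirectSum.sum_support_of u]
  exact Finset.sum_induction _ P hadd h0 fun k _ => hof k _ (hu k)

theorem tcross_mem_killTot {X X' : T} {u : (RSys R S).Tot X} (hu : u ∈ killTot R S Y X)
    (v : (RSys R S).Tot X') : (RSys R S).tcross u v ∈ killTot R S Y (X ⊗ X') := by
  refine killTot_induction (P := fun u => (RSys R S).tcross u v ∈ killTot R S Y (X ⊗ X')) ?_
    (fun x y hx hy => ?_) (fun k a ha => ?_) hu
  · rw [map_zero, AddMonoidHom.zero_apply]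
    exact zero_mem _
  · rw [map_add, AddMonoidHom.add_apply]
    exact add_mem hx hy
  · induction v using DirectSum.induction_on with
    | zero => rw [map_zero]; exact zero_mem _
    | add v v' h h' => rw [map_add]; exact add_mem h h'
    | of l b =>
      have h1 : (RSys R S).tcross ((RSys R S).tof X k a) ((RSys R S).tof X' l b) ∈
          killTot R S Y (X ⊗ X') := by
        rw [MSys.tcross_of_of, tof_mem_killTot, hq_xprod, comp_whiskerRight,
          tensorHom_whisker_zero _ ha, zero_comp]
      exact h1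

end gen

section theory

variable {T : Type u} [Category.{v} T] [Preadditive T] [HasZeroObject T]
    [HasShift T ℤ] [∀ n : ℤ, (shiftFunctor T n).Additive] [Pretriangulated T]
    [MonoidalCategory T] [SymmetricCategory T] [TensorTriangulated T]
variable {R : T} [MonObj R] [IsCommMonObj R] {S : EvenSpheres T} {F : SpaceFunctor T}

variable (R S F) in
/-- The classes of the theory of `R` which are killed by `Y`. -/
def killU (Y : T) (X : LC) : AddSubgroup (UU (RSys R S) F X) where
  carrier := {u | ∀ h : FC X, uev h u ∈ killTot R S Y (F.S.obj ⟨X, h⟩)}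
  zero_mem' h := by rw [map_zero]; exact zero_mem _
  add_mem' ha hb h := by rw [map_add]; exact add_mem (ha h) (hb h)
  neg_mem' ha h := by rw [map_neg]; exact neg_mem (ha h)

variable (e : F.S.obj CCF ≅ S.L)

variable (R) in
/-- **The ideal of the classes of the theory of `R` which are killed by `Y`.** -/
def kill (Y : T) : TIdeal (thK e R) where
  I X := killU R S F Y X
  map_mem {X X'} hX hX' f {y} hy h := by
    have h' : FC X' := hX'.out
    have e1 : uev h ((thK e R).map f y) = _ := uev_umap h h' f y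
    rw [e1]
    exact tpull_mem_killTot _ (hy h')
  cross_mem {X X'} hX hX' {x} y hx h := by
    have e1 : uev h ((thK e R).cross x y) = _ := uev_ucross hX.out hX'.out h x y
    rw [e1]
    exact tpull_mem_killTot _ (tcross_mem_killTot (hx hX.out) _)

theorem mem_kill {Y : T} {X : LC} (hX : FC X) {u : (thK e R).U X} :
    u ∈ (kill R e Y).I X ↔ uev hX u ∈ killTot R S Y (F.S.obj ⟨X, hX⟩) :=
  ⟨fun h => h hX, fun h _ => h⟩

theorem tuel_mem_kill {Y : T} {X : LC} (hX : FC X) {k : ℤ} {x : F.S.obj ⟨X, hX⟩ ⟶ R ⊗ S.S k} :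
    tuel (cofTriangles F) (isSusp_lineCls e (SeqMonoid.const R)) hX k x ∈ (kill R e Y).I X ↔
      x ▷ Y = 0 := by
  rw [mem_kill e hX]
  have h1 : uev hX (tuel (cofTriangles F) (isSusp_lineCls e (SeqMonoid.const R)) hX k x) =
      (RSys R S).tof _ k (MSys.cls (M := RSys R S) 0 x) := rfl
  rw [h1, tof_mem_killTot]
  rfl

/-- coefficients killed by `Y` -/
theorem coefOf_mem_kill {Y : T} {m : ℤ} {b : S.S m ⟶ R} (hb : b ▷ Y = 0) :
    coefOf (cofTriangles F) (isSusp_lineCls e (SeqMonoid.const R)) b ∈ (kill R e Y).coef := by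
  rw [TIdeal.mem_coef]
  refine (tuel_mem_kill e fc_unit).2 ?_
  rw [comp_whiskerRight, tr, comp_whiskerRight]
  have h1 : (((S.castIso (- -m) m (neg_neg m)).hom ≫ b) ▷ S.S (-m)) ▷ Y = 0 := by
    have h2 : ((S.castIso (- -m) m (neg_neg m)).hom ≫ b) ▷ Y = 0 := by
      rw [comp_whiskerRight, hb, comp_zero]
    have h3 := tensorHom_whisker_zero (𝟙 (S.S (-m))) h2
    rwa [tensorHom_id] at h3
  rw [h1, comp_zero, comp_zero]

end theory

end Vale.Agent.P241.H256
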