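import Vale.Agent.P241.H256.Kill
import Vale.Agent.P251.M.Rep
import Vale.Agent.P251.M.SpaceConn

/-!
# P241, block BRIDGE, (B3): the suspension class of `ℂ^ι` and classes killed by `Z`

* `unitCls R i` : the class `X ⟶ R ⊗ S^{2k}` of `i : X ⟶ S^{2k}`;
* `IsUnitC`, `isUnitC_lin` : the suspension class `o.lin ι` is the class of an isomorphism
  `S(ℂ^ι) ≅ S^{2|ι|}`;
* `tensor_eq_zero_of_mem_kill` : if `b • g^*(o.lin ι)` is killed by `Z`, `g : A ⟶ ℂ^ι`,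
  `b : S^{2n} ⟶ R`, then `(S g ⊗ Z) ⊗ b = 0`.
-/

open CategoryTheory MonoidalCategory Limits Pretriangulated MonObj
open Vale.Agent.P251.G Vale.Agent.P251.G.LC Vale.Agent.P251.I Vale.Agent.P251.T Vale.Agent.P251.Q
  Vale.Agent.P251.M

set_option linter.unusedSectionVars false

universe v u

noncomputable section

namespace Vale.Agent.P241.H256

section gen

variable {T : Type u} [Category.{v} T] [MonoidalCategory T] [SymmetricCategory T]
  (R : T) [MonObj R] [IsCommMonObj R] {S : EvenSpheres T}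

/-- the class of `i : X ⟶ S^{2k}` -/
def unitCls {X : T} {k : ℤ} (i : X ⟶ S.S k) : X ⟶ R ⊗ S.S k :=
  i ≫ (λ_ (S.S k)).inv ≫ (η[R] ▷ S.S k)

theorem comp_unitCls {X Y : T} {k : ℤ} (f : Y ⟶ X) (i : X ⟶ S.S k) :
    f ≫ unitCls R i = unitCls R (f ≫ i) := (Category.assoc _ _ _).symm

theorem unit_whisker {A B C : T} (nu : A ⊗ B ⟶ C) :
    ((λ_ A).inv ▷ B) ≫ ((η[R] ▷ A) ▷ B) ≫ (α_ R A B).hom ≫ (R ◁ nu) =
      nu ≫ (λ_ C).inv ≫ (η[R] ▷ C) := by
  rw [associator_naturality_left_assoc, ← whisker_exchange, leftUnitor_inv_naturality_assoc]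
  simp

theorem unitCls_mul {X Y : T} {k l q : ℤ} (h : k + l = q) (i : X ⟶ S.S k) (j : Y ⟶ S.S l) :
    (unitCls R i ⊗ₘ unitCls R j) ≫ tensorμ _ _ _ _ ≫ (μ[R] ⊗ₘ (S.mu k l q h).hom) =
      unitCls R ((i ⊗ₘ j) ≫ (S.mu k l q h).hom) := by
  have h1 : (unitCls R i ⊗ₘ unitCls R j) =
      (X ◁ j) ≫ (unitCls R i ⊗ₘ ((λ_ (S.S l)).inv ≫ (η[R] ▷ S.S l))) := by
    rw [← id_tensorHom, tensorHom_comp_tensorHom, Category.id_comp]
    rfl
  rw [h1, Category.assoc, mul_sig_aux η[R] μ[R] (MonObj.mul_one R) (S.mu k l q h).hom]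
  rw [unitCls, comp_whiskerRight, comp_whiskerRight, Category.assoc, Category.assoc, unit_whisker,
    unitCls, tensorHom_def', Category.assoc, Category.assoc]

variable {R}

/-- acting on the class of a map to a sphere -/
theorem unitCls_actBy {X : T} {n q l : ℤ} (h : n + q = l) (i : X ⟶ S.S l) (b : S.S n ⟶ R) :
    unitCls R i ≫ actBy S h b = i ≫ (S.mu n q l h).inv ≫ (b ▷ S.S q) := by
  have h1 : (λ_ (S.S l)).inv ≫ (η[R] ▷ S.S l) ≫ R ◁ (S.mu n q l h).inv =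
      (S.mu n q l h).inv ≫ (λ_ (S.S n ⊗ S.S q)).inv ≫ (η[R] ▷ (S.S n ⊗ S.S q)) := by
    rw [← whisker_exchange, leftUnitor_inv_naturality_assoc]
  have h2 : (λ_ (S.S n ⊗ S.S q)).inv ≫ (η[R] ▷ (S.S n ⊗ S.S q)) ≫ R ◁ (b ▷ S.S q) =
      (b ▷ S.S q) ≫ (λ_ (R ⊗ S.S q)).inv ≫ (η[R] ▷ (R ⊗ S.S q)) := by
    rw [← whisker_exchange, leftUnitor_inv_naturality_assoc]
  have h3 : (λ_ (R ⊗ S.S q)).inv ≫ (η[R] ▷ (R ⊗ S.S q)) ≫ (α_ R R (S.S q)).inv ≫
      (μ[R] ▷ S.S q) = 𝟙 _ := by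
    rw [associator_inv_naturality_left_assoc, ← comp_whiskerRight, MonObj.one_mul]
    simp
  unfold unitCls actBy
  simp only [Category.assoc]
  rw [reassoc_of% h1, reassoc_of% h2, h3, Category.comp_id]

/-- `((A ⊗ B) ⊗ C) ⊗ D ⟶ (A ⊗ D) ⊗ (B ⊗ C)` -/
def psi (A B C D : T) : ((A ⊗ B) ⊗ C) ⊗ D ≅ (A ⊗ D) ⊗ (B ⊗ C) :=
  whiskerRightIso (α_ A B C) D ≪≫ α_ A (B ⊗ C) D ≪≫ whiskerLeftIso A (β_ (B ⊗ C) D) ≪≫
    (α_ A D (B ⊗ C)).symm

theorem psi_left {A A' : T} (a : A ⟶ A') (B C D : T) :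
    (((a ▷ B) ▷ C) ▷ D) ≫ (psi A' B C D).hom = (psi A B C D).hom ≫ ((a ▷ D) ▷ (B ⊗ C)) := by
  simp only [psi, Iso.trans_hom, whiskerRightIso_hom, whiskerLeftIso_hom, Iso.symm_hom,
    Category.assoc]
  rw [← comp_whiskerRight_assoc, associator_naturality_left, comp_whiskerRight_assoc,
    associator_naturality_left_assoc, ← whisker_exchange_assoc, associator_inv_naturality_left]

theorem psi_right (A B C : T) {D D' : T} (d : D ⟶ D') :
    (((A ⊗ B) ⊗ C) ◁ d) ≫ (psi A B C D').hom = (psi A B C D).hom ≫ ((A ◁ d) ▷ (B ⊗ C)) := by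
  simp only [psi, Iso.trans_hom, whiskerRightIso_hom, whiskerLeftIso_hom, Iso.symm_hom,
    Category.assoc]
  rw [whisker_exchange_assoc, associator_naturality_right_assoc, ← whiskerLeft_comp_assoc,
    BraidedCategory.braiding_naturality_right, whiskerLeft_comp_assoc,
    associator_inv_naturality_middle]

theorem braiding_even (S : EvenSpheres T) (n : ℤ) : (β_ (S.S n) (S.S n)).hom = 𝟙 _ :=
  IsFr.unique (F := (S.fr n).tensor (S.fr n)) (G := (S.fr n).tensor (S.fr n)) rfl (S.symFr n n)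
    (IsFr.id _)

end gen

section lin

variable {T : Type u} [Category.{v} T] [Preadditive T] [HasZeroObject T]
    [HasShift T ℤ] [∀ n : ℤ, (shiftFunctor T n).Additive] [Pretriangulated T]
    [MonoidalCategory T] [SymmetricCategory T] [TensorTriangulated T]
variable {R : T} [MonObj R] [IsCommMonObj R] {S : EvenSpheres T} {F : SpaceFunctor T}
variable (e : F.S.obj CCF ≅ S.L)

/-- the homogeneous class of a morphism -/
abbrev tcl {X : LC} (hX : FC X) (k : ℤ) (x : F.S.obj ⟨X, hX⟩ ⟶ R ⊗ S.S k) : (thK e R).U X :=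
  tuel (cofTriangles F) (isSusp_lineCls e (SeqMonoid.const R)) hX k x

/-- The class `u` is the class of an isomorphism `S X ≅ S^{2k}`. -/
def IsUnitC {X : LC} (u : (thK e R).U X) (k : ℤ) : Prop :=
  ∃ (hX : FC X) (i : F.S.obj ⟨X, hX⟩ ≅ S.S k), u = tcl e hX k (unitCls R i.hom)

variable {e}

theorem IsUnitC.map {X Y : LC} (f : X ≅ Y) {u : (thK e R).U Y} {k : ℤ} (h : IsUnitC e u k) :
    IsUnitC e ((thK e R).map f.hom u) k := by
  obtain ⟨hY, i, rfl⟩ := h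
  have hX : FC X := hY.of_iso f.symm
  let f' : (⟨X, hX⟩ : FCat) ≅ ⟨Y, hY⟩ := fcIso f
  refine ⟨hX, F.S.mapIso f' ≪≫ i, ?_⟩
  rw [tcl, map_tuel hX hY]
  exact congrArg (tcl e hX k) (comp_unitCls R _ _)

theorem IsUnitC.cross {X Y : LC} {u : (thK e R).U X} {w : (thK e R).U Y} {k l q : ℤ}
    (h : k + l = q) (hu : IsUnitC e u k) (hw : IsUnitC e w l) :
    IsUnitC e ((thK e R).cross u w) q := by
  obtain ⟨hX, i, rfl⟩ := hu
  obtain ⟨hY, j, rfl⟩ := hw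
  refine ⟨fc_tensor hX hY, (Functor.Monoidal.μIso F.S ⟨X, hX⟩ ⟨Y, hY⟩).symm ≪≫ (i ⊗ᵢ j) ≪≫
    S.mu k l q h, ?_⟩
  refine (ucross_uel hX hY (fc_tensor hX hY) h _ _).trans ?_
  refine congrArg (tcl e (fc_tensor hX hY) q) ?_
  rw [unitCls_mul, comp_unitCls]
  rfl

theorem isUnitC_one : IsUnitC e (thK e R).one 0 := by
  refine ⟨fc_unit, (Functor.Monoidal.εIso F.S).symm ≪≫ asIso S.z, ?_⟩
  change umk fc_unit ((RSys R S).tpull _ (RSys R S).tone) = _
  rw [MSys.tone, MSys.tpull_of]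
  refine (umk_tof fc_unit 0 _).trans ?_
  refine congrArg (tcl e fc_unit 0) ?_
  rw [hq_pull, hq_unit]
  have h1 : (λ_ (𝟙_ T)).inv ≫ (η[R] ⊗ₘ S.z) = unitCls R S.z := by
    rw [tensorHom_def', ← leftUnitor_inv_naturality_assoc]
    rfl
  rw [h1]
  exact comp_unitCls R _ _

theorem isUnitC_sg : IsUnitC e (thK e R).sg 1 :=
  ⟨fcCC, e ≪≫ S.oneIso.symm, rfl⟩

theorem isUnitC_lin_fin (o : Orientation (thK e R)) (n : ℕ) : IsUnitC e (o.lin (Fin n)) n := by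
  induction n with
  | zero =>
    have h1 : o.lin (Fin 0) = (thK e R).map (cpowEmpty (Fin 0)).inv (thK e R).one := by
      rw [← lin_empty o (I := Fin 0), MultTheory.map_inv_hom]
    rw [h1]
    exact isUnitC_one.map (cpowEmpty (Fin 0)).symm
  | succ n ih =>
    have h2 : o.lin (Fin (n + 1)) = (thK e R).map
        ((cpowIso (finSumUnit n)).symm ≪≫ (Th.csum (Fin n) Unit).symm ≪≫
          (whiskerLeftIso (Cpow (Fin n)) cpowUnit)).hom
        ((thK e R).cross (o.lin (Fin n)) (thK e R).sg) := by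
      simp only [Iso.trans_hom, Iso.symm_hom, whiskerLeftIso_hom]
      rw [← lin_unit o, MultTheory.map_comp, MultTheory.map_comp, ← MultTheory.cross_map_right,
        MultTheory.map_hom_inv, ← lin_sum, MultTheory.map_inv_hom,
        ← lin_reindex o (finSumUnit n), MultTheory.map_inv_hom]
    rw [h2]
    exact (ih.cross (by push_cast; rfl) isUnitC_sg).map _

/-- **The suspension class of `ℂ^ι` is the class of an isomorphism.** -/
theorem isUnitC_lin (o : Orientation (thK e R)) (ι : Type) [Fintype ι] [DecidableEq ι] :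
    IsUnitC e (o.lin ι) (Fintype.card ι) := by
  rw [← lin_reindex o (Fintype.equivFin ι)]
  exact (isUnitC_lin_fin o (Fintype.card ι)).map _

/-- **(B3)** -/
theorem tensor_eq_zero_of_mem_kill (o : Orientation (thK e R)) {ι : Type} [Fintype ι]
    [DecidableEq ι] {A : LC} (hA : FC A) (hι : FC (Cpow ι)) (g : A ⟶ Cpow ι) {n : ℤ}
    (b : S.S n ⟶ R) (Z : T)
    (h : coefOf (cofTriangles F) (isSusp_lineCls e (SeqMonoid.const R)) b •
      (thK e R).map g (o.lin ι) ∈ (kill R e Z).I A) :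
    (F.S.map (FCat.hom (X := ⟨A, hA⟩) (Y := ⟨Cpow ι, hι⟩) g) ▷ Z) ⊗ₘ b = 0 := by
  obtain ⟨l, hl⟩ : ∃ l : ℤ, IsUnitC e (o.lin ι) l := ⟨_, isUnitC_lin o ι⟩
  obtain ⟨hι', i, hi⟩ := hl
  set G := F.S.map (FCat.hom (X := ⟨A, hA⟩) (Y := ⟨Cpow ι, hι⟩) g) with hG
  have hq : n + (l - n) = l := by ring
  rw [hi, tcl, map_tuel hA hι, smul_tuel hA hq, tuel_mem_kill e hA, comp_unitCls,
    unitCls_actBy] at h
  set j : F.S.obj ⟨Cpow ι, hι⟩ ≅ S.S n ⊗ S.S (l - n) := i ≪≫ (S.mu n (l - n) l hq).symm with hj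
  have h1 : ((G ≫ j.hom) ▷ Z) ≫ ((b ▷ S.S (l - n)) ▷ Z) = 0 := by
    rw [← comp_whiskerRight, hj]
    simpa using h
  have h2 : S.S n ◁ b = (b ▷ S.S n) ≫ (β_ (S.S n) R).inv := by
    rw [Iso.eq_comp_inv, BraidedCategory.braiding_naturality_right, braiding_even,
      Category.id_comp]
  rw [← cancel_mono (((j.hom ▷ Z) ▷ R) ≫ (psi (S.S n) (S.S (l - n)) Z R).hom), zero_comp,
    tensorHom_def]
  have h3 : (((G ▷ Z) ▷ S.S n) ≫ ((F.S.obj ⟨Cpow ι, hι⟩ ⊗ Z) ◁ b)) ≫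
      ((j.hom ▷ Z) ▷ R) ≫ (psi (S.S n) (S.S (l - n)) Z R).hom =
      ((((G ≫ j.hom) ▷ Z) ≫ ((b ▷ S.S (l - n)) ▷ Z)) ▷ S.S n) ≫ (psi R (S.S (l - n)) Z (S.S n)).hom ≫
        ((β_ (S.S n) R).inv ▷ (S.S (l - n) ⊗ Z)) := by
    rw [Category.assoc, whisker_exchange_assoc, psi_right, h2, comp_whiskerRight,
      ← reassoc_of% (psi_left b (S.S (l - n)) Z (S.S n))]
    simp only [comp_whiskerRight, Category.assoc]
  rw [h3, h1, MonoidalPreadditive.zero_whiskerRight, zero_comp]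

end lin

end Vale.Agent.P241.H256
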