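import Vale.Agent.P241.H435.RealSt
import Vale.Agent.P251.M.LimTheory
import Vale.Agent.P251.M.CofTri

/-!
# P241, block BRIDGE, (B3): classes of `R` on spheres are represented by honest pointed maps

`R` is a telescope of objects which are realised by finite cell spaces.

* `Repr F x v` : the pointed map `v : ℝ^a ⟶ C` represents `x : X ⟶ R` (`X` a sphere);
* `exists_repr` : every `x` is represented;
* `exists_repr_null` : if `g : A ⟶ B` is a pointed map with `S g ⊗ x = 0` then `x` is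
  represented by some `v` such that `g × v` is null-homotopic.
-/

open CategoryTheory MonoidalCategory Limits Pretriangulated
open Vale.Agent.P251.G Vale.Agent.P251.G.LC Vale.Agent.P251.I Vale.Agent.P251.T Vale.Agent.P251.M
  Vale.Agent.P241.H435

set_option linter.unusedSectionVars false

universe v u

noncomputable section

namespace Vale.Agent.P241.H256

variable {T : Type u} [Category.{v} T] [Preadditive T] [HasZeroObject T]
    [HasShift T ℤ] [∀ n : ℤ, (shiftFunctor T n).Additive] [Pretriangulated T]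
    [MonoidalCategory T] [SymmetricCategory T] [TensorTriangulated T]

section repr

variable (F : SpaceFunctor T)

/-- The pointed map `v : ℝ^a ⟶ C` represents `x : X ⟶ R`. -/
def Repr {X R : T} (x : X ⟶ R) {a : ℕ} {C : FCat} (v : SphF a ⟶ C) : Prop :=
  ∃ (P : T) (p : ℤ) (_ : Nonempty (P ≅ (𝟙_ T)⟦p⟧)) (θ : F.S.obj C ⟶ R ⊗ P)
    (e : F.S.obj (SphF a) ≅ X ⊗ P), F.S.map v ≫ θ = e.hom ≫ (x ▷ P)

variable {F}

theorem Repr.comp {X R R' : T} {x : X ⟶ R} {a : ℕ} {C : FCat} {v : SphF a ⟶ C}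
    (h : Repr F x v) (f : R ⟶ R') : Repr F (x ≫ f) v := by
  obtain ⟨P, p, hP, θ, e, h1⟩ := h
  refine ⟨P, p, hP, θ ≫ (f ▷ P), e, ?_⟩
  rw [reassoc_of% h1, ← comp_whiskerRight]

/-- multiplication by `ℝ^r` -/
def susMap {a : ℕ} {C : FCat} (v : SphF a ⟶ C) (r : ℕ) : SphF (a + r) ⟶ C ⊗ SphF r :=
  (fcIso (X := SphF a ⊗ SphF r) (Y := SphF (a + r)) (sphTensor a r)).inv ≫ (v ▷ SphF r)

theorem map_whiskerRight_inv {X Y : FCat} (f : X ⟶ Y) (Z : FCat) :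
    F.S.map (f ▷ Z) ≫ (Functor.Monoidal.μIso F.S Y Z).inv =
      (Functor.Monoidal.μIso F.S X Z).inv ≫ (F.S.map f ▷ F.S.obj Z) := by
  simp

theorem Repr.sus {X R : T} {x : X ⟶ R} {a : ℕ} {C : FCat} {v : SphF a ⟶ C}
    (h : Repr F x v) (r : ℕ) : Repr F x (susMap v r) := by
  obtain ⟨P, p, ⟨hP⟩, θ, e, h1⟩ := h
  obtain ⟨i⟩ := nonempty_unit_shift_add (T := T) p r (p + r) rfl
  refine ⟨P ⊗ F.S.obj (SphF r), p + r, ⟨(hP ⊗ᵢ sphIso F r) ≪≫ i⟩,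
    (Functor.Monoidal.μIso F.S C (SphF r)).inv ≫ (θ ▷ F.S.obj (SphF r)) ≫ (α_ _ _ _).hom,
    F.S.mapIso (fcIso (X := SphF a ⊗ SphF r) (Y := SphF (a + r)) (sphTensor a r)).symm ≪≫
      (Functor.Monoidal.μIso F.S (SphF a) (SphF r)).symm ≪≫ whiskerRightIso e _ ≪≫ α_ _ _ _, ?_⟩
  rw [susMap, Functor.map_comp, Category.assoc, reassoc_of% (map_whiskerRight_inv v (SphF r)),
    ← comp_whiskerRight_assoc, h1]
  simp

end repr

section real

variable {F : SpaceFunctor T}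

/-- Morphisms from spheres to realised objects are honest: `v` is a map out of some `ℝ^a`. -/
theorem exists_honest {X A : T} (x : X ⟶ A) {n : ℤ} (hX : Nonempty (X ≅ (𝟙_ T)⟦n⟧))
    (hA : RealC F A) :
    ∃ (a : ℕ) (C : FCat) (v : SphF a ⟶ C) (P : T) (p : ℤ) (_ : Nonempty (P ≅ (𝟙_ T)⟦p⟧))
      (ε : F.S.obj C ≅ A ⊗ P) (e : F.S.obj (SphF a) ≅ X ⊗ P),
      F.S.map v ≫ ε.hom = e.hom ≫ (x ▷ P) := by
  obtain ⟨Z, c, e₀⟩ := hA
  obtain ⟨hX⟩ := hX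
  obtain ⟨b, a, hab⟩ : ∃ b a : ℕ, n + (c + b) = a :=
    ⟨(-(n + c)).toNat, (n + (c + (-(n + c)).toNat)).toNat, by omega⟩
  obtain ⟨e₂⟩ := raise' e₀ b (c + b) rfl
  obtain ⟨i⟩ := nonempty_unit_shift_add (T := T) n (c + b) a hab
  let P₁ : T := (𝟙_ T)⟦(c + b : ℤ)⟧
  let e₁ : F.S.obj (SphF a) ≅ X ⊗ P₁ := sphIso F a ≪≫ i.symm ≪≫ whiskerRightIso hX.symm P₁
  let φ : F.S.obj (SphF a) ⟶ F.S.obj (Z ⊗ SphF b) := e₁.hom ≫ (x ▷ P₁) ≫ e₂.inv
  obtain ⟨r, h, hh⟩ := F.full φ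
  obtain ⟨j⟩ := nonempty_unit_shift_add (T := T) (c + b) r (c + b + r) rfl
  refine ⟨a + r, (Z ⊗ SphF b) ⊗ SphF r,
    (fcIso (X := SphF a ⊗ SphF r) (Y := SphF (a + r)) (sphTensor a r)).inv ≫ h,
    P₁ ⊗ F.S.obj (SphF r), c + b + r, ⟨whiskerLeftIso _ (sphIso F r) ≪≫ j⟩,
    (Functor.Monoidal.μIso F.S (Z ⊗ SphF b) (SphF r)).symm ≪≫ whiskerRightIso e₂ _ ≪≫ α_ _ _ _,
    F.S.mapIso (fcIso (X := SphF a ⊗ SphF r) (Y := SphF (a + r)) (sphTensor a r)).symm ≪≫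
      (Functor.Monoidal.μIso F.S (SphF a) (SphF r)).symm ≪≫ whiskerRightIso e₁ _ ≪≫ α_ _ _ _, ?_⟩
  rw [Functor.map_comp, hh]
  simp [φ]
  rfl

/-- `S g ⊗ x = 0` implies `S (g ⊗ v) = 0` for `v` as in `exists_honest`. -/
theorem map_tensor_eq_zero {X A : T} {x : X ⟶ A} {Y Z : FCat} (g : Y ⟶ Z)
    (h : F.S.map g ⊗ₘ x = 0) {a : ℕ} {C : FCat} {v : SphF a ⟶ C} {P : T}
    {ε : F.S.obj C ≅ A ⊗ P} {e : F.S.obj (SphF a) ≅ X ⊗ P}
    (hv : F.S.map v ≫ ε.hom = e.hom ≫ (x ▷ P)) : F.S.map (g ⊗ₘ v) = 0 := by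
  have h1 : F.S.map v = e.hom ≫ (x ▷ P) ≫ ε.inv := by
    rw [← Category.assoc, ← hv, Category.assoc, Iso.hom_inv_id, Category.comp_id]
  have h2 : (F.S.map g ⊗ₘ (x ▷ P)) = 0 := by
    have h3 : (F.S.map g ⊗ₘ (x ▷ P)) = (α_ _ _ _).inv ≫ ((F.S.map g ⊗ₘ x) ▷ P) ≫ (α_ _ _ _).hom := by
      rw [← tensorHom_id, ← tensorHom_id, associator_naturality, Iso.inv_hom_id_assoc]
    rw [h3, h, MonoidalPreadditive.zero_whiskerRight, zero_comp, comp_zero]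
  have h4 : (F.S.map g ⊗ₘ F.S.map v) = 0 := by
    have h5 : (F.S.map g ⊗ₘ (e.hom ≫ (x ▷ P) ≫ ε.inv)) =
        (F.S.obj Y ◁ e.hom) ≫ (F.S.map g ⊗ₘ (x ▷ P)) ≫ (F.S.obj Z ◁ ε.inv) := by
      rw [← id_tensorHom, ← id_tensorHom, tensorHom_comp_tensorHom, tensorHom_comp_tensorHom,
        Category.id_comp, Category.comp_id]
    rw [h1, h5, h2, zero_comp, comp_zero]
  have h6 := Functor.Monoidal.map_tensor F.S g v
  rw [h6, h4, zero_comp, comp_zero]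

end real

section tel

variable [IsTriangulated T] [MonoidalClosed T] [HasCoproducts.{0} T] [HasProducts.{0} T]
  [StableCat T]

/-- `R` is a telescope of objects realised by finite cell spaces. -/
structure RealTel (F : SpaceFunctor T) (R : T) where
  /-- the sequence -/
  A : ℕ ⥤ T
  /-- the maps of the stages to the telescope -/
  ι : ∀ n, A.obj n ⟶ R
  tel : IsTel A R ι
  real : ∀ n, RealC F (A.obj n)

variable {F : SpaceFunctor T} {R : T}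

theorem isCpt_sphere {X : T} {n : ℤ} (hX : Nonempty (X ≅ (𝟙_ T)⟦n⟧)) : IsCpt X := by
  obtain ⟨e⟩ := hX
  exact IsCpt.of_iso (isCpt_sph n) e.symm

theorem isCpt_tensor_sphere (Y : FCat) {X : T} {n : ℤ} (hX : Nonempty (X ≅ (𝟙_ T)⟦n⟧)) :
    IsCpt (F.S.obj Y ⊗ X) := by
  obtain ⟨e⟩ := hX
  exact IsCpt.of_iso (IsCpt.shift (isCpt_space F (cofTriangles F) Y.property) n)
    ((tensorUnitShiftIso _ n).symm ≪≫ whiskerLeftIso _ e.symm)

/-- **(R1)** every class on a sphere is represented by an honest map. -/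
theorem exists_repr (hR : RealTel F R) {X : T} (x : X ⟶ R) {n : ℤ}
    (hX : Nonempty (X ≅ (𝟙_ T)⟦n⟧)) :
    ∃ (a : ℕ) (C : FCat) (v : SphF a ⟶ C), Repr F x v := by
  obtain ⟨k, y, rfl⟩ := hR.tel.exists_factor' (isCpt_sphere hX) x
  obtain ⟨a, C, v, P, p, hP, ε, e, h⟩ := exists_honest y hX (hR.real k)
  exact ⟨a, C, v, Repr.comp ⟨P, p, hP, ε.hom, e, h⟩ (hR.ι k)⟩

/-- **(R2)** If `S g ⊗ x = 0`, then `x` is represented by an honest map `v` such that `g × v` is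
null-homotopic. -/
theorem exists_repr_null (hR : RealTel F R) {Y Z : FCat} (g : Y ⟶ Z) {X : T} (x : X ⟶ R) {n : ℤ}
    (hX : Nonempty (X ≅ (𝟙_ T)⟦n⟧)) (h : F.S.map g ⊗ₘ x = 0) :
    ∃ (a : ℕ) (C : FCat) (v : SphF a ⟶ C), Repr F x v ∧ Homotopic (g.hom ⊗ₘ v.hom) 0 := by
  obtain ⟨k, y, rfl⟩ := hR.tel.exists_factor' (isCpt_sphere hX) x
  have h1 : (F.S.map g ⊗ₘ y) ≫ (F.S.obj Z ◁ hR.ι k) = 0 := by
    rw [← id_tensorHom, tensorHom_comp_tensorHom, Category.comp_id, h]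
  obtain ⟨l, hl, h2⟩ := hR.tel.whiskerLeft_eq_zero (F.S.obj Z) (isCpt_tensor_sphere Y hX) _ h1
  rw [← id_tensorHom, tensorHom_comp_tensorHom, Category.comp_id] at h2
  obtain ⟨a, C, v, P, p, hP, ε, e, h3⟩ := exists_honest (y ≫ hR.A.map (homOfLE hl)) hX (hR.real l)
  have h4 : F.S.map (g ⊗ₘ v) = F.S.map (FCat.hom (0 : (Y ⊗ SphF a).obj ⟶ (Z ⊗ C).obj)) := by
    rw [S_map_zero, map_tensor_eq_zero g h2 h3]
  obtain ⟨r, h5⟩ := F.faithful _ _ h4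
  have h6 : Repr F (y ≫ hR.ι k) v := by
    rw [← hR.tel.comp hl, ← Category.assoc]
    exact Repr.comp ⟨P, p, hP, ε.hom, e, h3⟩ (hR.ι l)
  refine ⟨a + r, C ⊗ SphF r, susMap v r, h6.sus r, ?_⟩
  have h7 : (g.hom ⊗ₘ (susMap v r).hom) = (Y.obj ◁ (sphTensor a r).inv) ≫
      (α_ _ _ _).inv ≫ ((g.hom ⊗ₘ v.hom) ▷ Sph r) ≫ (α_ _ _ _).hom := by
    have e1 : (susMap v r).hom = (sphTensor a r).inv ≫ (v.hom ▷ Sph r) := rfl
    rw [e1, ← tensorHom_id, ← tensorHom_id, associator_naturality, Iso.inv_hom_id_assoc,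
      ← id_tensorHom, tensorHom_comp_tensorHom, Category.id_comp]
  have h8 : Homotopic ((g.hom ⊗ₘ v.hom) ▷ Sph r) 0 := by
    have e2 : ((0 : (Y ⊗ SphF a).obj ⟶ (Z ⊗ C).obj) ▷ Sph r) = 0 := by
      apply LC.hom_ext
      rintro ⟨z, s⟩
      have e3 := app_whiskerRight_smash (0 : (Y ⊗ SphF a).obj ⟶ (Z ⊗ C).obj) (Sph r)
        (z : OnePoint (Y ⊗ SphF a).obj) (s : OnePoint (Sph r))
      rw [app_zero, smash_infty_left] at e3
      exact e3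
    rw [← e2]
    exact h5
  rw [h7]
  refine Homotopic.trans (Homotopic.comp_left _ (Homotopic.comp_left _
    (Homotopic.comp_right h8 _))) (Homotopic.of_eq ?_)
  rw [zero_comp, comp_zero, comp_zero]

end tel

end Vale.Agent.P241.H256
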